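import Vale.Agent.P236C.All
import Vale.Agent.P236K.Fin4

/-!
# P236: the Kervaire invariant problem at the prime three

The classes `b_j` survive in the mod three Adams spectral sequence exactly for `j = 0, 2, 3`, and
for these `j` there is a stable class of order three which is detected by `b_j`.
The definitions are in `P251/T/Axioms`, `P251/St/Base`, `P251CX/St` (with the files on orthogonal
spectra which it imports), `P236Z/Top/St` and `P236K/St`.
-/

open Vale.Agent Vale.Agent.P251 Vale.Agent.P251.St in
theorem Vale.Agent.Results.P236.AKervaire.result :
    (∃ (T : St.SHCat) (S : St.Susp T), Nonempty (P251CX.IsSH T S.1)) ∧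
      ∀ (T : St.SHCat) (_ : St.Susp T), P236K.Goal T :=
  P236K.final_of_alg' P236C.D.alg.1 P236C.D.alg.2
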